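import Mathlib
import Vale.Agent.Helper23.P052Core

namespace Vale.Agent.Results.P052.FewPoints

/-- Borsuk's conjecture for small finite sets: every set of at most `d + 4` points of Euclidean
`d`-space with positive diameter splits into `d + 1` classes, each of diameter strictly
smaller than the diameter of the whole set. -/
theorem result (d : ℕ) (Y : Finset (EuclideanSpace ℝ (Fin d))) (hY : Y.card ≤ d + 4)
    (hpos : 0 < Metric.diam (Y : Set (EuclideanSpace ℝ (Fin d)))) :
    ∃ c : EuclideanSpace ℝ (Fin d) → Fin (d + 1), ∀ i : Fin (d + 1),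
      Metric.diam {x | x ∈ Y ∧ c x = i} < Metric.diam (Y : Set (EuclideanSpace ℝ (Fin d))) :=
  Vale.Agent.Helper23.P052Core.borsuk_small Y hY hpos

end Vale.Agent.Results.P052.FewPoints
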